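import Vale.Agent.P052.Defs

/-! Chunked kernel evaluation of one certificate. -/

namespace Vale.Agent.P052

theorem auto0_chunk0 : (chunk 0).all (autoOK false) = true := by decide +kernel

theorem auto0_chunk1 : (chunk 1).all (autoOK false) = true := by decide +kernel

theorem auto0_chunk2 : (chunk 2).all (autoOK false) = true := by decide +kernel

theorem auto0_chunk3 : (chunk 3).all (autoOK false) = true := by decide +kernel

theorem auto0_chunk4 : (chunk 4).all (autoOK false) = true := by decide +kernel

theorem auto0_chunk5 : (chunk 5).all (autoOK false) = true := by decide +kernel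

theorem auto0_chunk6 : (chunk 6).all (autoOK false) = true := by decide +kernel

theorem auto0_chunk7 : (chunk 7).all (autoOK false) = true := by decide +kernel

theorem auto0_chunk8 : (chunk 8).all (autoOK false) = true := by decide +kernel

theorem auto0_chunk9 : (chunk 9).all (autoOK false) = true := by decide +kernel

theorem auto0_chunk10 : (chunk 10).all (autoOK false) = true := by decide +kernel

theorem auto0_chunk11 : (chunk 11).all (autoOK false) = true := by decide +kernel

theorem auto0_chunk12 : (chunk 12).all (autoOK false) = true := by decide +kernel

theorem auto0_all : ∀ c < 13, (chunk c).all (autoOK false) = true := by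
  intro c hc
  match c, hc with
  | 0, _ => exact auto0_chunk0
  | 1, _ => exact auto0_chunk1
  | 2, _ => exact auto0_chunk2
  | 3, _ => exact auto0_chunk3
  | 4, _ => exact auto0_chunk4
  | 5, _ => exact auto0_chunk5
  | 6, _ => exact auto0_chunk6
  | 7, _ => exact auto0_chunk7
  | 8, _ => exact auto0_chunk8
  | 9, _ => exact auto0_chunk9
  | 10, _ => exact auto0_chunk10
  | 11, _ => exact auto0_chunk11
  | 12, _ => exact auto0_chunk12
  | n + 13, h => exact absurd h (by omega)

end Vale.Agent.P052
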