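import Vale.Agent.P052.Defs

/-! Kernel evaluation of the small certificates. -/

namespace Vale.Agent.P052

theorem chk_clique : noClique 5 nbrs0 = true := by decide +kernel

theorem chk_zero : (f1 0 == 1 && f2 0 == 1 && !adjN 0 0 && inBlocks 0) = true := by
  decide +kernel

theorem chk_card : (allV.filter (fun i => !inBlocks i)).length = 320 := by decide +kernel

theorem chk_nonedge : (allV.filter (fun i => !inBlocks i && !adjN 0 i)) ≠ [] := by
  decide +kernel

theorem chk_nodup0 : nbrs0.length = 100 := by decide +kernel

end Vale.Agent.P052
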