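import Mathlib.Data.Int.Notation
import Vale.Agent.P052.Data

/-!
Boolean certificates for the 416-vertex strongly regular graph used in the 63-dimensional
Borsuk counterexample. They are evaluated by the kernel in small chunks.
-/

namespace Vale.Agent.P052

def adjN (i j : ℕ) : Bool := (rowTree.get i).testBit j

def digitAt (w data i : ℕ) : ℕ := (data >>> (w * i)) % 2 ^ w

def permN : Bool → ℕ → ℕ
  | false, i => digitAt 9 perm0Data i
  | true, i => digitAt 9 perm1Data i

def invN : Bool → ℕ → ℕ
  | false, i => digitAt 9 inv0Data i
  | true, i => digitAt 9 inv1Data i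

/-- `applyWord` follows a word of generators, coded as a binary number with a leading one. -/
def applyWord : ℕ → ℕ → ℕ → ℕ
  | 0, _, i => i
  | fuel + 1, c, i => bif c ≤ 1 then i else applyWord fuel (c / 2) (permN (c % 2 == 1) i)

def wordOf (v : ℕ) : ℕ := digitAt wordWidth wordsTo0Data v

def allV : List ℕ := List.range 416

/-- The `c`th of thirteen intervals of length 32. -/
def chunk (c : ℕ) : List ℕ := List.range' (32 * c) 32

def nbrs (i : ℕ) : List ℕ := allV.filter (adjN i)

def nbrs0 : List ℕ := nbrs 0

def f1 (i : ℕ) : ℤ :=
  bif blockB1.contains i then 1 else bif blockB2.contains i then -1 else 0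

def f2 (i : ℕ) : ℤ :=
  bif blockB1.contains i then 1 else bif blockB2.contains i then 1
  else bif blockB3.contains i then -2 else 0

def inBlocks (i : ℕ) : Bool :=
  blockB1.contains i || blockB2.contains i || blockB3.contains i

def autoOK (s : Bool) (i : ℕ) : Bool :=
  Nat.blt (permN s i) 416 && invN s (permN s i) == i &&
    (nbrs i).all fun j => adjN (permN s i) (permN s j)

def srgOK (j : ℕ) : Bool :=
  (nbrs0.countP fun k => adjN k j) ==
    bif j == 0 then 100 else bif adjN 0 j then 36 else 20

def blockOK (i : ℕ) : Bool :=
  blockB1.countP (adjN i) == (bif blockB1.contains i then 20 else bif inBlocks i then 0 else 8) &&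
  blockB2.countP (adjN i) == (bif blockB2.contains i then 20 else bif inBlocks i then 0 else 8) &&
  blockB3.countP (adjN i) == (bif blockB3.contains i then 20 else bif inBlocks i then 0 else 8)

def zeroOK (j : ℕ) : Bool :=
  adjN 0 j == adjN j 0 && applyWord 11 (wordOf j) j == 0

/-- `noClique k l`: the list `l` has no `k` pairwise adjacent members. -/
def allSplit (f : List ℕ → Bool) : List ℕ → Bool
  | [] => true
  | a :: t => f (t.filter (adjN a)) && allSplit f t

def noClique : ℕ → List ℕ → Bool
  | 0 => fun _ => false
  | k + 1 => fun l => allSplit (noClique k) l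

end Vale.Agent.P052
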