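import Mathlib
import Vale.Agent.P052.Defs
import Vale.Agent.P052.CertAuto0
import Vale.Agent.P052.CertAuto1
import Vale.Agent.P052.CertSrg
import Vale.Agent.P052.CertBlock
import Vale.Agent.P052.CertZero
import Vale.Agent.P052.CertMisc

/-!
From the boolean certificates to statements about the graph: clique number at most five, and
the quadratic matrix identity `M * M = 96 * M` for `M = 4A + 16I - J`.
-/

namespace Vale.Agent.P052

abbrev V := Fin 416

def Adj (i j : V) : Prop := adjN i.val j.val = true

theorem of_chunks {p : ℕ → Bool} (h : ∀ c < 13, (chunk c).all p = true) (i : V) :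
    p i.val = true := by
  have hc := h (i.val / 32) (by omega)
  rw [List.all_eq_true] at hc
  refine hc _ ?_
  rw [chunk, List.mem_range']
  exact ⟨i.val % 32, Nat.mod_lt _ (by norm_num), by omega⟩

theorem autoOK_all (s : Bool) (i : V) : autoOK s i.val = true := by
  cases s
  · exact of_chunks auto0_all i
  · exact of_chunks auto1_all i

theorem mem_nbrs {i : V} {j : ℕ} (hj : j < 416) : j ∈ nbrs i.val ↔ adjN i.val j = true := by
  simp [nbrs, allV, hj]

theorem permN_lt (s : Bool) (i : V) : permN s i.val < 416 := by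
  have h := autoOK_all s i
  simp only [autoOK, Bool.and_eq_true, Nat.blt_eq] at h
  exact h.1.1

def permV (s : Bool) (i : V) : V := ⟨permN s i.val, permN_lt s i⟩

theorem permV_injective (s : Bool) : Function.Injective (permV s) := by
  intro i j hij
  have hi := autoOK_all s i
  have hj := autoOK_all s j
  simp only [autoOK, Bool.and_eq_true, beq_iff_eq] at hi hj
  have : permN s i.val = permN s j.val := congrArg Fin.val hij
  apply Fin.ext
  rw [← hi.1.2, ← hj.1.2, this]

theorem adj_permV (s : Bool) {i j : V} (hij : Adj i j) : Adj (permV s i) (permV s j) := by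
  have h := autoOK_all s i
  simp only [autoOK, Bool.and_eq_true, List.all_eq_true] at h
  exact h.2 _ ((mem_nbrs j.isLt).2 hij)

/-- A bijection mapping edges to edges maps non-edges to non-edges, as there are finitely many
edges. -/
theorem adj_iff_of_injective {g : V → V} (hg : Function.Injective g)
    (h : ∀ i j, Adj i j → Adj (g i) (g j)) (i j : V) : Adj (g i) (g j) ↔ Adj i j := by
  refine ⟨fun hij => ?_, h i j⟩
  let F : {p : V × V // adjN p.1.val p.2.val = true} →
      {p : V × V // adjN p.1.val p.2.val = true} :=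
    fun p => ⟨(g p.1.1, g p.1.2), h _ _ p.2⟩
  have hF : Function.Injective F := by
    intro p q hpq
    have h1 := congrArg (fun r => r.1.1) hpq
    have h2 := congrArg (fun r => r.1.2) hpq
    exact Subtype.ext (Prod.ext (hg h1) (hg h2))
  obtain ⟨p, hp⟩ := (Finite.injective_iff_surjective.1 hF) ⟨(g i, g j), hij⟩
  have h1 := hg (congrArg (fun r => r.1.1) hp)
  have h2 := hg (congrArg (fun r => r.1.2) hp)
  have := p.2
  rw [h1, h2] at this
  exact this

theorem exists_word_map : ∀ (n c : ℕ), ∃ g : V → V, Function.Injective g ∧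
    (∀ i j, Adj i j → Adj (g i) (g j)) ∧ ∀ i : V, (g i).val = applyWord n c i.val
  | 0, c => ⟨id, Function.injective_id, fun _ _ h => h, fun i => rfl⟩
  | n + 1, c => by
    obtain ⟨g, hg, hga, hgv⟩ := exists_word_map n (c / 2)
    by_cases hc : c ≤ 1
    · exact ⟨id, Function.injective_id, fun _ _ h => h, fun i => by simp [applyWord, hc]⟩
    · refine ⟨g ∘ permV (c % 2 == 1), hg.comp (permV_injective _),
        fun i j h => hga _ _ (adj_permV _ h), fun i => ?_⟩
      simp [applyWord, hc, hgv, permV]

theorem exists_auto (v : V) : ∃ g : V → V, Function.Bijective g ∧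
    (∀ i j, Adj (g i) (g j) ↔ Adj i j) ∧ g v = 0 := by
  obtain ⟨g, hg, hga, hgv⟩ := exists_word_map 11 (wordOf v.val)
  refine ⟨g, Finite.injective_iff_bijective.1 hg, adj_iff_of_injective hg hga, Fin.ext ?_⟩
  rw [hgv]
  have h := of_chunks zero_all v
  simp only [zeroOK, Bool.and_eq_true, beq_iff_eq] at h
  exact h.2

theorem chk_zero_parts :
    f1 0 = 1 ∧ f2 0 = 1 ∧ adjN 0 0 = false ∧ inBlocks 0 = true := by
  have h := chk_zero
  simp only [Bool.and_eq_true, beq_iff_eq, Bool.not_eq_true'] at h
  exact ⟨h.1.1.1, h.1.1.2, h.1.2, h.2⟩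

theorem adj_irrefl (i : V) : ¬ Adj i i := by
  obtain ⟨g, -, hga, hgv⟩ := exists_auto i
  rw [← hga i i, hgv]
  simp [Adj, chk_zero_parts.2.2.1]

theorem adj_symm {i j : V} (hij : Adj i j) : Adj j i := by
  obtain ⟨g, -, hga, hgv⟩ := exists_auto i
  rw [← hga j i, hgv]
  have h := (hga i j).2 hij
  rw [hgv] at h
  have hz := of_chunks zero_all (g j)
  simp only [zeroOK, Bool.and_eq_true, beq_iff_eq] at hz
  unfold Adj at h ⊢
  rw [Fin.val_zero] at h ⊢
  rw [← hz.1]
  exact h

theorem noClique_sound : ∀ (k : ℕ) (l : List ℕ) (T : Finset ℕ), noClique k l = true →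
    (∀ x ∈ T, x ∈ l) → (∀ x ∈ T, ∀ y ∈ T, x ≠ y → adjN x y = true) → T.card < k
  | 0, l, T => by simp [noClique]
  | k + 1, l, T => by
    intro h
    induction l with
    | nil =>
      intro hl _
      have : T = ∅ := Finset.eq_empty_of_forall_notMem fun x hx => by simpa using hl x hx
      simp [this]
    | cons a t ih =>
      intro hl hT
      simp only [noClique, allSplit, Bool.and_eq_true] at h
      by_cases ha : a ∈ T
      · have h' := noClique_sound k _ (T.erase a) h.1 ?_ ?_
        · rw [Finset.card_erase_of_mem ha] at h'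
          omega
        · intro x hx
          obtain ⟨hxa, hxT⟩ := Finset.mem_erase.1 hx
          have := hl x hxT
          simp only [List.mem_cons, hxa, false_or] at this
          exact List.mem_filter.2 ⟨this, hT a ha x hxT (Ne.symm hxa)⟩
        · exact fun x hx y hy => hT x (Finset.mem_of_mem_erase hx) y (Finset.mem_of_mem_erase hy)
      · refine ih (by simpa [noClique] using h.2) (fun x hx => ?_) hT
        have := hl x hx
        simp only [List.mem_cons] at this
        rcases this with rfl | h'
        · exact absurd hx ha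
        · exact h'

theorem mem_nbrs0 {j : ℕ} (hj : j < 416) : j ∈ nbrs0 ↔ adjN 0 j = true :=
  mem_nbrs (i := (0 : V)) hj

/-- The graph has no six pairwise adjacent vertices. -/
theorem clique_le_five (s : Finset V) (hs : ∀ i ∈ s, ∀ j ∈ s, i ≠ j → Adj i j) : s.card ≤ 5 := by
  classical
  rcases s.eq_empty_or_nonempty with rfl | ⟨v, hv⟩
  · simp
  obtain ⟨g, hg, hga, hgv⟩ := exists_auto v
  let T : Finset ℕ := (s.erase v).image fun i => (g i).val
  have hcard : T.card = (s.erase v).card :=
    Finset.card_image_of_injective _ fun a b h => hg.1 (Fin.ext h)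
  have hT : T.card < 5 := by
    refine noClique_sound 5 nbrs0 T chk_clique ?_ ?_
    · intro x hx
      obtain ⟨i, hi, rfl⟩ := Finset.mem_image.1 hx
      obtain ⟨hiv, his⟩ := Finset.mem_erase.1 hi
      have h := (hga v i).2 (hs v hv i his (Ne.symm hiv))
      rw [hgv] at h
      exact (mem_nbrs0 (g i).isLt).2 h
    · intro x hx y hy hxy
      obtain ⟨i, hi, rfl⟩ := Finset.mem_image.1 hx
      obtain ⟨j, hj, rfl⟩ := Finset.mem_image.1 hy
      exact (hga i j).2 (hs i (Finset.mem_of_mem_erase hi) j (Finset.mem_of_mem_erase hj)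
        fun h => hxy (by rw [h]))
  rw [hcard, Finset.card_erase_of_mem hv] at hT
  omega

/-- The adjacency matrix, with values `0` and `1`. -/
def Aint (i j : V) : ℤ := if adjN i.val j.val = true then 1 else 0

theorem Aint_map {g : V → V} (hga : ∀ i j, Adj (g i) (g j) ↔ Adj i j) (i j : V) :
    Aint (g i) (g j) = Aint i j := by
  rw [Aint, Aint, show adjN (g i).val (g j).val = adjN i.val j.val from
    Bool.eq_iff_iff.2 (hga i j)]

theorem Aint_comm (i j : V) : Aint i j = Aint j i := by
  rw [Aint, Aint, show adjN i.val j.val = adjN j.val i.val from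
    Bool.eq_iff_iff.2 ⟨fun h => adj_symm (i := i) (j := j) h,
      fun h => adj_symm (i := j) (j := i) h⟩]

theorem card_filter_fin (n : ℕ) (p : ℕ → Bool) :
    (Finset.univ.filter fun i : Fin n => p i.val = true).card =
      ((List.range n).filter p).length := by
  rw [← Finset.card_map Fin.valEmbedding,
    ← List.toFinset_card_of_nodup ((List.nodup_range).filter _)]
  congr 1
  ext x
  simp [Fin.exists_iff, and_comm]

theorem sum_ite_fin (p : ℕ → Bool) :
    ∑ i : V, (if p i.val = true then (1 : ℤ) else 0) = ((allV.filter p).length : ℤ) := by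
  rw [← Finset.natCast_card_filter, card_filter_fin 416 p, allV]

theorem Aint_row0 : ∑ k : V, Aint 0 k = 100 := by
  simp only [Aint, Fin.val_zero]
  rw [sum_ite_fin (adjN 0)]
  exact_mod_cast chk_nodup0

theorem Aint_sq0 (j : V) :
    ∑ k : V, Aint 0 k * Aint k j = 16 * Aint 0 j + (if 0 = j then 80 else 0) + 20 := by
  have h := of_chunks srg_all j
  simp only [srgOK, beq_iff_eq] at h
  have e : ∀ k : V, Aint 0 k * Aint k j =
      if (adjN 0 k.val && adjN k.val j.val) = true then 1 else 0 := fun k => by
    simp only [Aint, Fin.val_zero]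
    by_cases a : adjN 0 k.val = true <;> by_cases b : adjN k.val j.val = true <;> simp [a, b]
  simp only [e]
  rw [sum_ite_fin fun k => adjN 0 k && adjN k j.val]
  have hl : (allV.filter fun k => adjN 0 k && adjN k j.val).length =
      nbrs0.countP fun k => adjN k j.val := by
    rw [List.countP_eq_length_filter, nbrs0, nbrs, List.filter_filter]
    congr 2
    funext k
    exact Bool.and_comm _ _
  rw [hl, h]
  by_cases hj : j = 0
  · subst hj
    simp [Aint, chk_zero_parts.2.2.1]
  · have hj' : (j.val == 0) = false := by simpa using fun e => hj (Fin.ext e)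
    simp only [hj', cond_false, Aint, Fin.val_zero, if_neg (Ne.symm hj)]
    by_cases a : adjN 0 j.val = true <;> simp [a]

theorem Aint_row (i : V) : ∑ k : V, Aint i k = 100 := by
  obtain ⟨g, hg, hga, hgv⟩ := exists_auto i
  have h := Aint_row0
  rw [← (Equiv.ofBijective g hg).sum_comp] at h
  simp only [Equiv.ofBijective_apply, ← hgv, Aint_map hga] at h
  exact h

theorem Aint_sq (i j : V) :
    ∑ k : V, Aint i k * Aint k j = 16 * Aint i j + (if i = j then 80 else 0) + 20 := by
  obtain ⟨g, hg, hga, hgv⟩ := exists_auto i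
  have h := Aint_sq0 (g j)
  rw [← (Equiv.ofBijective g hg).sum_comp] at h
  simp only [Equiv.ofBijective_apply, ← hgv, Aint_map hga, hg.1.eq_iff] at h
  exact h

/-- The integer matrix `4A + 16I - J`. -/
def Mint (i j : V) : ℤ := 4 * Aint i j + (if i = j then 16 else 0) - 1

theorem Mint_comm (i j : V) : Mint i j = Mint j i := by
  simp [Mint, Aint_comm i j, eq_comm]

theorem Mint_self (i : V) : Mint i i = 15 := by
  have h : Aint i i = 0 := if_neg (adj_irrefl i)
  simp [Mint, h]

theorem Mint_val {i j : V} (h : i ≠ j) :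
    (Adj i j → Mint i j = 3) ∧ (¬ Adj i j → Mint i j = -1) := by
  constructor <;> intro ha <;> simp only [Adj] at ha <;> simp [Mint, Aint, h, ha]

theorem Mint_sum (i : V) : ∑ k : V, Mint i k = 0 := by
  simp [Mint, Finset.sum_add_distrib, ← Finset.mul_sum, Aint_row]

theorem Mint_sq (i j : V) : ∑ k : V, Mint i k * Mint k j = 96 * Mint i j := by
  have e : ∀ k : V, Mint i k * Mint k j = 16 * (Aint i k * Aint k j) - 4 * Aint i k +
      (if k = j then 64 * Aint i k else 0) + (if i = k then 16 * Mint k j else 0) -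
      4 * Aint j k + 1 - (if k = j then 16 else 0) := fun k => by
    simp only [Mint, Aint_comm j k]
    split_ifs <;> ring
  simp only [e, Finset.sum_sub_distrib, Finset.sum_add_distrib, ← Finset.mul_sum, Aint_sq,
    Aint_row, Finset.sum_ite_eq, Finset.sum_ite_eq', Finset.mem_univ, if_true, Finset.sum_const,
    Finset.card_univ, Fintype.card_fin]
  simp only [Mint]
  split_ifs <;> norm_num <;> ring

theorem f_outside (i : ℕ) (h : inBlocks i = false) : f1 i = 0 ∧ f2 i = 0 := by
  simp only [inBlocks, Bool.or_eq_false_iff] at h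
  simp only [f1, f2, h.1.1, h.1.2, h.2, cond_false, and_self]

/-- The indicator of a block of vertices. -/
def ind (B : List ℕ) (i : V) : ℤ := if B.contains i.val = true then 1 else 0

theorem sum_ind (B : List ℕ) (hB : B.Nodup ∧ ∀ x ∈ B, x < 416) (p : ℕ → Bool) :
    ∑ j : V, (if p j.val = true then (1 : ℤ) else 0) * ind B j = (B.countP p : ℤ) := by
  have e : ∀ j : V, (if p j.val = true then (1 : ℤ) else 0) * ind B j =
      if (p j.val && B.contains j.val) = true then 1 else 0 := fun j => by
    simp only [ind]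
    by_cases a : p j.val = true <;> by_cases b : B.contains j.val = true <;> simp [a, b]
  simp only [e]
  rw [sum_ite_fin fun x => p x && B.contains x, List.countP_eq_length_filter]
  congr 1
  refine List.Perm.length_eq ((List.perm_ext_iff_of_nodup ((List.nodup_range).filter _)
    (hB.1.filter _)).2 fun x => ?_)
  simp only [allV, List.mem_filter, List.mem_range, Bool.and_eq_true, List.contains_iff_mem]
  exact ⟨fun h => ⟨h.2.2, h.2.1⟩, fun h => ⟨hB.2 x h.1, h.2, h.1⟩⟩

theorem block_ok :
    (blockB1.Nodup ∧ ∀ x ∈ blockB1, x < 416) ∧ (blockB2.Nodup ∧ ∀ x ∈ blockB2, x < 416) ∧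
      (blockB3.Nodup ∧ ∀ x ∈ blockB3, x < 416) ∧
      blockB1.length = 32 ∧ blockB2.length = 32 ∧ blockB3.length = 32 ∧
      (∀ x ∈ blockB1, x ∉ blockB2 ∧ x ∉ blockB3) ∧ ∀ x ∈ blockB2, x ∉ blockB3 := by
  decide +kernel

theorem block_disjoint (i : V) :
    ind blockB1 i * ind blockB2 i = 0 ∧ ind blockB1 i * ind blockB3 i = 0 ∧
      ind blockB2 i * ind blockB3 i = 0 := by
  obtain ⟨-, -, -, -, -, -, h1, h2⟩ := block_ok
  simp only [ind, List.contains_iff_mem]
  by_cases a : i.val ∈ blockB1 <;> by_cases b : i.val ∈ blockB2 <;> simp_all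

theorem f1_eq (i : V) : f1 i.val = ind blockB1 i - ind blockB2 i := by
  have h := (block_disjoint i).1
  by_cases a : blockB1.contains i.val = true <;> by_cases b : blockB2.contains i.val = true <;>
    simp_all [f1, ind]

theorem f2_eq (i : V) :
    f2 i.val = ind blockB1 i + ind blockB2 i - 2 * ind blockB3 i := by
  obtain ⟨h, h', h''⟩ := block_disjoint i
  by_cases a : blockB1.contains i.val = true <;> by_cases b : blockB2.contains i.val = true <;>
    by_cases c : blockB3.contains i.val = true <;> simp_all [f2, ind]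

theorem sum_ind_one (B : List ℕ) (hB : B.Nodup ∧ ∀ x ∈ B, x < 416) :
    ∑ j : V, ind B j = (B.length : ℤ) := by
  have h := sum_ind B hB fun _ => true
  simpa using h

theorem Aint_block (i : V) :
    (∑ j, Aint i j * ind blockB1 j = 20 * ind blockB1 i + (if inBlocks i.val then 0 else 8)) ∧
    (∑ j, Aint i j * ind blockB2 j = 20 * ind blockB2 i + (if inBlocks i.val then 0 else 8)) ∧
    (∑ j, Aint i j * ind blockB3 j = 20 * ind blockB3 i + (if inBlocks i.val then 0 else 8)) := by
  obtain ⟨h1, h2, h3, -⟩ := block_ok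
  have h := of_chunks block_all i
  simp only [blockOK, Bool.and_eq_true, beq_iff_eq] at h
  simp only [Aint]
  rw [sum_ind _ h1, sum_ind _ h2, sum_ind _ h3, h.1.1, h.1.2, h.2]
  by_cases a : blockB1.contains i.val = true <;> by_cases b : blockB2.contains i.val = true <;>
    by_cases c : blockB3.contains i.val = true <;> simp_all [ind, inBlocks]

theorem Mint_ind (i : V) (B : List ℕ) (hB : B.Nodup ∧ ∀ x ∈ B, x < 416) :
    ∑ j, Mint i j * ind B j = 4 * (∑ j, Aint i j * ind B j) + 16 * ind B i - B.length := by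
  have e : ∀ j : V, Mint i j * ind B j =
      4 * (Aint i j * ind B j) + (if i = j then 16 * ind B j else 0) - ind B j := fun j => by
    simp only [Mint]
    split_ifs <;> ring
  simp [e, Finset.sum_sub_distrib, Finset.sum_add_distrib, ← Finset.mul_sum, sum_ind_one B hB]

theorem Mint_f1 (i : V) : ∑ j : V, Mint i j * f1 j.val = 96 * f1 i.val := by
  obtain ⟨h1, h2, -, l1, l2, -⟩ := block_ok
  obtain ⟨a1, a2, -⟩ := Aint_block i
  simp only [f1_eq, mul_sub, Finset.sum_sub_distrib, Mint_ind i _ h1, Mint_ind i _ h2, a1, a2,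
    l1, l2]
  ring

theorem Mint_f2 (i : V) : ∑ j : V, Mint i j * f2 j.val = 96 * f2 i.val := by
  obtain ⟨h1, h2, h3, l1, l2, l3, -⟩ := block_ok
  obtain ⟨a1, a2, a3⟩ := Aint_block i
  simp only [f2_eq, mul_sub, mul_add, mul_left_comm _ (2 : ℤ), Finset.sum_sub_distrib,
    Finset.sum_add_distrib, ← Finset.mul_sum, Mint_ind i _ h1, Mint_ind i _ h2, Mint_ind i _ h3,
    a1, a2, a3, l1, l2, l3]
  ring

theorem f_dots : ∑ i : V, f1 i.val * f1 i.val = 64 ∧ ∑ i : V, f1 i.val * f2 i.val = 0 ∧
    ∑ i : V, f2 i.val * f2 i.val = 192 := by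
  obtain ⟨h1, h2, h3, l1, l2, l3, -⟩ := block_ok
  have sq : ∀ B (i : V), ind B i * ind B i = ind B i := fun B i => by
    simp only [ind]; split_ifs <;> simp
  have e : ∀ i : V, f1 i.val * f1 i.val = ind blockB1 i + ind blockB2 i ∧
      f1 i.val * f2 i.val = ind blockB1 i - ind blockB2 i ∧
      f2 i.val * f2 i.val = ind blockB1 i + ind blockB2 i + 4 * ind blockB3 i := fun i => by
    obtain ⟨d12, d13, d23⟩ := block_disjoint i
    have s1 := sq blockB1 i
    have s2 := sq blockB2 i
    have s3 := sq blockB3 i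
    rw [f1_eq, f2_eq]
    refine ⟨?_, ?_, ?_⟩
    · linear_combination s1 + s2 - 2 * d12
    · linear_combination s1 - s2 - 2 * d13 + 2 * d23
    · linear_combination s1 + s2 + 4 * s3 + 2 * d12 - 4 * d13 - 4 * d23
  simp [(e _).1, (e _).2.1, (e _).2.2, Finset.sum_add_distrib, Finset.sum_sub_distrib,
    ← Finset.mul_sum, sum_ind_one _ h1, sum_ind_one _ h2, sum_ind_one _ h3, l1, l2, l3]

/-- The 321 indices used: everything outside the three blocks, and the vertex `0`. -/
def kept : Finset V := insert 0 (Finset.univ.filter fun i : V => inBlocks i.val = false)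

theorem card_kept : kept.card = 321 := by
  have hh : (Finset.univ.filter fun i : V => (!inBlocks i.val) = true).card = 320 :=
    (card_filter_fin 416 fun x => !inBlocks x).trans chk_card
  simp only [Bool.not_eq_true'] at hh
  rw [kept, Finset.card_insert_of_notMem (by simpa using chk_zero_parts.2.2.2), hh]

theorem kept_cases {i : V} (hi : i ∈ kept) :
    i = 0 ∨ (i ≠ 0 ∧ f1 i.val = 0 ∧ f2 i.val = 0) := by
  by_cases h : i = 0
  · exact Or.inl h
  · simp only [kept, Finset.mem_insert, h, Finset.mem_filter, Finset.mem_univ, true_and,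
      false_or] at hi
    exact Or.inr ⟨h, f_outside i hi⟩

theorem exists_far : ∃ i ∈ kept, i ≠ 0 ∧ ¬ Adj 0 i := by
  obtain ⟨x, hx⟩ := List.exists_mem_of_ne_nil _ chk_nonedge
  simp only [List.mem_filter, allV, List.mem_range, Bool.and_eq_true, Bool.not_eq_true'] at hx
  obtain ⟨hx, hb, ha⟩ := hx
  refine ⟨⟨x, hx⟩, ?_, ?_, ?_⟩
  · simp [kept, hb]
  · intro h
    have h0 : x = 0 := congrArg Fin.val h
    rw [h0, chk_zero_parts.2.2.2] at hb
    exact absurd hb (by simp)
  · simp [Adj, ha]

end Vale.Agent.P052
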