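import Mathlib
import Vale.Agent.P052.Graph

/-!
The 321 points in a 63-dimensional subspace of `ℝ^416`.
-/

namespace Vale.Agent.P052

open Matrix

noncomputable def Qmat : Matrix V V ℝ := fun i j =>
  (Mint i j : ℝ) / 96 - (f1 i.val : ℝ) * f1 j.val / 64 - (f2 i.val : ℝ) * f2 j.val / 192

theorem Qmat_sq (i j : V) : ∑ k, Qmat i k * Qmat k j = Qmat i j := by
  have a : ∑ k : V, (Mint i k : ℝ) * Mint k j = 96 * Mint i j := by exact_mod_cast Mint_sq i j
  have b1 : ∑ k : V, (Mint i k : ℝ) * f1 k.val = 96 * f1 i.val := by exact_mod_cast Mint_f1 i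
  have b2 : ∑ k : V, (Mint i k : ℝ) * f2 k.val = 96 * f2 i.val := by exact_mod_cast Mint_f2 i
  have c1 : ∑ k : V, (f1 k.val : ℝ) * Mint k j = 96 * f1 j.val := by
    rw [← (show ∑ k : V, (Mint j k : ℝ) * f1 k.val = 96 * f1 j.val by exact_mod_cast Mint_f1 j)]
    exact Finset.sum_congr rfl fun k _ => by rw [Mint_comm k j]; ring
  have c2 : ∑ k : V, (f2 k.val : ℝ) * Mint k j = 96 * f2 j.val := by
    rw [← (show ∑ k : V, (Mint j k : ℝ) * f2 k.val = 96 * f2 j.val by exact_mod_cast Mint_f2 j)]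
    exact Finset.sum_congr rfl fun k _ => by rw [Mint_comm k j]; ring
  have d11 : ∑ k : V, (f1 k.val : ℝ) * f1 k.val = 64 := by exact_mod_cast f_dots.1
  have d12 : ∑ k : V, (f1 k.val : ℝ) * f2 k.val = 0 := by exact_mod_cast f_dots.2.1
  have d22 : ∑ k : V, (f2 k.val : ℝ) * f2 k.val = 192 := by exact_mod_cast f_dots.2.2
  have e : ∀ k : V, Qmat i k * Qmat k j =
      (Mint i k : ℝ) * Mint k j / 9216 - (Mint i k : ℝ) * f1 k.val * ((f1 j.val : ℝ) / 6144)
      - (Mint i k : ℝ) * f2 k.val * ((f2 j.val : ℝ) / 18432)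
      - (f1 k.val : ℝ) * Mint k j * ((f1 i.val : ℝ) / 6144)
      + (f1 k.val : ℝ) * f1 k.val * ((f1 i.val : ℝ) * f1 j.val / 4096)
      + (f1 k.val : ℝ) * f2 k.val *
          ((f1 i.val : ℝ) * f2 j.val / 12288 + (f2 i.val : ℝ) * f1 j.val / 12288)
      - (f2 k.val : ℝ) * Mint k j * ((f2 i.val : ℝ) / 18432)
      + (f2 k.val : ℝ) * f2 k.val * ((f2 i.val : ℝ) * f2 j.val / 36864) := fun k => by
    simp only [Qmat]; ring
  simp only [e, Finset.sum_sub_distrib, Finset.sum_add_distrib, ← Finset.sum_mul,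
    ← Finset.sum_div, a, b1, b2, c1, c2, d11, d12, d22]
  simp only [Qmat]
  ring

theorem Qmat_symm (i j : V) : Qmat i j = Qmat j i := by
  simp only [Qmat, Mint_comm i j]; ring

theorem Qmat_trace : Qmat.trace = 63 := by
  have hM : ∀ i : V, (Mint i i : ℝ) = 15 := fun i => by simp [Mint_self]
  have d11 : ∑ k : V, (f1 k.val : ℝ) * f1 k.val = 64 := by exact_mod_cast f_dots.1
  have d22 : ∑ k : V, (f2 k.val : ℝ) * f2 k.val = 192 := by exact_mod_cast f_dots.2.2
  simp only [Matrix.trace, Matrix.diag_apply, Qmat, Finset.sum_sub_distrib, ← Finset.sum_div,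
    hM, d11, d22, Finset.sum_const, Finset.card_univ, Fintype.card_fin]
  norm_num

abbrev E416 := EuclideanSpace ℝ V

noncomputable def Qlin : E416 →ₗ[ℝ] E416 := Matrix.toEuclideanLin Qmat

theorem finrank_range_Qlin : Module.finrank ℝ (LinearMap.range Qlin) = 63 := by
  have hidem : Qmat * Qmat = Qmat := by
    ext i j; rw [Matrix.mul_apply]; exact Qmat_sq i j
  have hp : LinearMap.IsProj (LinearMap.range Qlin) Qlin := by
    refine ⟨fun x => LinearMap.mem_range_self _ x, ?_⟩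
    rintro x ⟨y, rfl⟩
    apply (WithLp.equiv 2 (V → ℝ)).injective
    simp [Qlin, Matrix.toEuclideanLin_apply, Matrix.mulVec_mulVec, hidem]
  have h := hp.trace
  have ht : LinearMap.trace ℝ E416 Qlin = 63 := by
    rw [LinearMap.trace_eq_matrix_trace ℝ (EuclideanSpace.basisFun V ℝ).toBasis]
    rw [show LinearMap.toMatrix (EuclideanSpace.basisFun V ℝ).toBasis
        (EuclideanSpace.basisFun V ℝ).toBasis Qlin = Qmat from ?_]
    · exact Qmat_trace
    · ext i j
      simp [LinearMap.toMatrix_apply, Qlin, Matrix.toEuclideanLin_apply,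
        Matrix.mulVec_single_one]
  rw [ht] at h
  exact_mod_cast h.symm

noncomputable def scaleQ : ℝ := (-1 + Real.sqrt 222) / 13

theorem scaleQ_spec : 13 * scaleQ ^ 2 + 2 * scaleQ = 17 ∧ 0 < scaleQ := by
  have h := Real.sq_sqrt (show (0 : ℝ) ≤ 222 by norm_num)
  have h0 : 1 < Real.sqrt 222 := Real.lt_sqrt zero_le_one |>.2 (by norm_num)
  constructor
  · simp only [scaleQ]; field_simp; nlinarith
  · simp only [scaleQ]; apply div_pos <;> linarith

noncomputable def coef (i : V) : ℝ := if i = 0 then scaleQ else 1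

noncomputable def pointW (i : V) : LinearMap.range Qlin :=
  ⟨Qlin (coef i • EuclideanSpace.single i 1), LinearMap.mem_range_self _ _⟩

theorem pointW_apply (i k : V) : (pointW i : E416) k = coef i * Qmat k i := by
  simp [pointW, Qlin, Matrix.toEuclideanLin_apply, Matrix.mulVec_single_one]

theorem sq_dist_pointW (i j : V) :
    dist (pointW i) (pointW j) ^ 2 =
      coef i ^ 2 * Qmat i i + coef j ^ 2 * Qmat j j - 2 * coef i * coef j * Qmat i j := by
  rw [Subtype.dist_eq, EuclideanSpace.dist_eq,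
    Real.sq_sqrt (Finset.sum_nonneg fun k _ => sq_nonneg _)]
  have e : ∀ k : V, dist ((pointW i : E416) k) ((pointW j : E416) k) ^ 2 =
      coef i ^ 2 * (Qmat i k * Qmat k i) + coef j ^ 2 * (Qmat j k * Qmat k j)
        - 2 * coef i * coef j * (Qmat i k * Qmat k j) := fun k => by
    rw [Real.dist_eq, sq_abs, pointW_apply, pointW_apply, Qmat_symm i k, Qmat_symm j k]; ring
  simp only [e, Finset.sum_sub_distrib, Finset.sum_add_distrib, ← Finset.mul_sum, Qmat_sq]

theorem Qmat_diag_zero : Qmat 0 0 = 13 / 96 := by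
  obtain ⟨h1, h2, -, -⟩ := chk_zero_parts
  simp [Qmat, Mint_self, h1, h2]
  norm_num

theorem Qmat_outside (i j : V) (h : f1 j.val = 0 ∧ f2 j.val = 0) :
    Qmat i j = (Mint i j : ℝ) / 96 := by
  simp [Qmat, h.1, h.2]

theorem dist_zero_kept {j : V} (hj : j ≠ 0) (h : f1 j.val = 0 ∧ f2 j.val = 0) :
    (Adj 0 j → dist (pointW 0) (pointW j) ^ 2 < 1 / 3) ∧
      (¬ Adj 0 j → dist (pointW 0) (pointW j) ^ 2 = 1 / 3) := by
  obtain ⟨ht, htpos⟩ := scaleQ_spec
  rw [sq_dist_pointW, Qmat_diag_zero, Qmat_outside j j h, Qmat_outside 0 j h]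
  have hjj : (Mint j j : ℝ) = 15 := by simp [Mint_self]
  simp only [coef, hj, if_true, if_false, hjj]
  constructor <;> intro ha
  · rw [(Mint_val hj.symm).1 ha]; push_cast; nlinarith
  · rw [(Mint_val hj.symm).2 ha]; push_cast; nlinarith

theorem dist_kept_kept {i j : V} (hi : i ≠ 0) (hj : j ≠ 0) (hij : i ≠ j)
    (h : f1 j.val = 0 ∧ f2 j.val = 0) (h' : f1 i.val = 0 ∧ f2 i.val = 0) :
    (Adj i j → dist (pointW i) (pointW j) ^ 2 < 1 / 3) ∧
      (¬ Adj i j → dist (pointW i) (pointW j) ^ 2 = 1 / 3) := by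
  rw [sq_dist_pointW, Qmat_outside j j h, Qmat_outside i i h', Qmat_outside i j h]
  have hjj : (Mint j j : ℝ) = 15 := by simp [Mint_self]
  have hii : (Mint i i : ℝ) = 15 := by simp [Mint_self]
  simp only [coef, hi, hj, if_false, hjj, hii]
  constructor <;> intro ha
  · rw [(Mint_val hij).1 ha]; norm_num
  · rw [(Mint_val hij).2 ha]; norm_num

theorem dist_kept {i j : V} (hi : i ∈ kept) (hj : j ∈ kept) (hij : i ≠ j) :
    (Adj i j → dist (pointW i) (pointW j) ^ 2 < 1 / 3) ∧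
      (¬ Adj i j → dist (pointW i) (pointW j) ^ 2 = 1 / 3) := by
  rcases kept_cases hi with rfl | ⟨hi0, hif⟩ <;> rcases kept_cases hj with rfl | ⟨hj0, hjf⟩
  · exact absurd rfl hij
  · exact dist_zero_kept hj0 hjf
  · rw [dist_comm]
    obtain ⟨a, b⟩ := dist_zero_kept hi0 hif
    exact ⟨fun h => a (adj_symm h), fun h => b fun h' => h (adj_symm h')⟩
  · exact dist_kept_kept hi0 hj0 hij hjf hif

end Vale.Agent.P052
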